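import Vale.Agent.P361.Field.Limit

open Filter
open scoped Topology

namespace Vale.Agent.Results.P361.BlochLaw

open Vale.Agent.P361 Vale.Agent.P361.Field

/-- Bloch's law for the three-dimensional spin `n/2` Heisenberg ferromagnet: the exact two-sided
asymptotics of the infinite-volume magnetization and pressure at every fixed `a = βh > 0`, whose
coefficient tends to the Bloch constant as `a ↓ 0`, and the sharp one-sided law at zero field.
The first conjunct records that the pressure is the thermodynamic limit and that the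
magnetizations are genuine right derivatives of this convex function. -/
theorem result (n : ℕ) (hn : 1 ≤ n) :
    (∀ β : ℝ, 0 < β →
      (∀ h : ℝ, ∃ C : ℝ, ∀ N : ℕ, |pressureN n N β h| ≤ C) ∧
      (∀ h : ℝ, 0 ≤ h → Tendsto (fun N => pressureN n N β h) atTop (𝓝 (pressure n β h))) ∧
      ConvexOn ℝ Set.univ (pressure n β) ∧
      ∀ h : ℝ, HasDerivWithinAt (pressure n β) (derivWithin (pressure n β) (Set.Ioi h) h)
        (Set.Ioi h) h) ∧
    (∀ a : ℝ, 0 < a → ∀ ε : ℝ, 0 < ε → ∀ᶠ β in atTop,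
      |β ^ (3 / 2 : ℝ) *
          ((n : ℝ) / 2 - derivWithin (pressure n β) (Set.Ioi (a / β)) (a / β)) -
        (∑' l : ℕ, Real.exp (-(((l : ℝ) + 1) * a)) / ((l : ℝ) + 1) ^ (3 / 2 : ℝ)) /
          (8 * Real.pi ^ (3 / 2 : ℝ) * ((n : ℝ) / 2) ^ (3 / 2 : ℝ))| ≤ ε ∧
      |β ^ (5 / 2 : ℝ) *
          (pressure n β (a / β) - (3 * ((n : ℝ) / 2) ^ 2 + (a / β) * ((n : ℝ) / 2))) -
        (∑' l : ℕ, Real.exp (-(((l : ℝ) + 1) * a)) / ((l : ℝ) + 1) ^ (5 / 2 : ℝ)) /
          (8 * Real.pi ^ (3 / 2 : ℝ) * ((n : ℝ) / 2) ^ (3 / 2 : ℝ))| ≤ ε) ∧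
    Tendsto (fun a : ℝ => ∑' l : ℕ, Real.exp (-(((l : ℝ) + 1) * a)) / ((l : ℝ) + 1) ^ (3 / 2 : ℝ))
      (𝓝[>] 0) (𝓝 (riemannZeta (3 / 2)).re) ∧
    ∀ ε : ℝ, 0 < ε → ∀ᶠ β in atTop,
      (riemannZeta (3 / 2)).re / (8 * Real.pi ^ (3 / 2 : ℝ) * ((n : ℝ) / 2) ^ (3 / 2 : ℝ)) - ε
        ≤ β ^ (3 / 2 : ℝ) * ((n : ℝ) / 2 - spontMag n β) := by
  refine ⟨fun β hβ => ⟨fun h => ⟨_, fun N => abs_pressureN_le (N := N) hβ h⟩,
    fun h hh => tendsto_pressureN hn hβ hh, pressure_convexOn hβ, fun h =>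
      (pressure_convexOn hβ).hasDerivWithinAt_rightDeriv_of_mem_interior (by simp)⟩,
    fun a ha ε hε => ?_, ?_, fun _ hε => bloch_lower hn hε⟩
  · filter_upwards [deriv_asymptotic hn ha hε, pressure_asymptotic hn ha hε] with β h1 h2
    simp only [magOcc, free, coefC, one_div_mul_eq_div] at h1 h2
    exact ⟨h1, h2⟩
  · have h : ContinuousOn (fun x : ℝ => ∑' l : ℕ,
        Real.exp (-(((l : ℝ) + 1) * x)) / ((l : ℝ) + 1) ^ (3 / 2 : ℝ)) (Set.Ici 0) := by
      refine continuousOn_tsum (fun l => by fun_prop) summable_three_halves fun l x hx => ?_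
      rw [Real.norm_of_nonneg (by positivity)]
      exact div_le_div_of_nonneg_right
        (Real.exp_le_one_iff.2 (neg_nonpos.2 (mul_nonneg (by positivity) hx))) (by positivity)
    have h2 := (h 0 Set.self_mem_Ici).tendsto.mono_left (nhdsWithin_mono _ Set.Ioi_subset_Ici_self)
    rw [zeta_three_halves]
    simpa using h2

end Vale.Agent.Results.P361.BlochLaw
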